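import Mathlib
import Vale.Agent.P200.Lpp

/-!
Eisenbud-Green-Harris for `c ≤ n` forms whose leading forms, for some weight on the variables, are
a regular sequence in which the degrees of the members that are not products of linear forms grow.
-/

open MvPolynomial Vale.Agent.P200

namespace Vale.Agent.Results.P200.AlmostSplitForms

theorem result :
    ∀ (K : Type*) [Field K] (n c : ℕ) (hc : c ≤ n) (a : Fin c → ℕ), Monotone a → (∀ i, 1 ≤ a i) →
      ∀ I : Ideal (MvPolynomial (Fin n) K), IsHom I →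
      (∃ (w : Fin n → ℕ) (k : Fin c → ℕ) (f : Fin c → MvPolynomial (Fin n) K) (R : Finset (Fin c)),
        (∀ i, f i ∈ I ∧ (f i).IsHomogeneous (a i) ∧ weightedTotalDegree w (f i) ≤ k i) ∧
        IsRegSeq a (fun i => weightedHomogeneousComponent w (k i) (f i)) ∧
        (∀ i ∉ R, SplitForm (weightedHomogeneousComponent w (k i) (f i)) (a i)) ∧
          (∀ i ∈ R, (R.filter fun j => j < i).card ≤ 1 ∨
            ∑ j ∈ R.filter (fun j => j < i), (a j - 1) ≤ a i ∨
            ((R.filter fun j => j ≤ i).card ≤ 4 ∧ ∀ j ∈ R, j ≤ i → a j = 2))) →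
      ∃ D : Set (Fin n → ℕ), (∀ e ∈ D, ∀ i, e (Fin.castLE hc i) < a i) ∧
        (∀ e ∈ D, ∀ t : Fin n → ℕ, t ≤ e → t ∈ D) ∧
        (∀ e ∈ D, ∀ t : Fin n → ℕ, (∀ i, t (Fin.castLE hc i) < a i) → ∑ i, t i = ∑ i, e i →
          toLex t < toLex e → t ∈ D) ∧
        IsHom (powersPlus K hc a D) ∧
        (∀ i, (X (Fin.castLE hc i)) ^ a i ∈ powersPlus K hc a D) ∧
        ∀ d, hilb (powersPlus K hc a D) d = hilb I d :=
  fun _ _ _ _ hc _ ha ha1 _ hI ⟨w, k, f, R, hf, hreg, hR, hRc⟩ =>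
    exists_lpp_weighted hc ha ha1 hI w k f R hf hreg hR hRc

end Vale.Agent.Results.P200.AlmostSplitForms
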